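import Vale.Agent.P038.Gadget

/-!
Seymour's second neighbourhood statement is equivalent to its restriction to large almost regular
tournaments missing a bounded-degree graph, and to an averaged inequality over selections.
-/

namespace Vale.Agent.Results.P038.AlmostTournamentReduction

open Finset Vale.Agent.P038.Averaged

/-- The averaged inequality follows from the bounded missing degree cases on large vertex sets. -/
lemma averaged_of_bounded (hS : ∀ Δ, ∃ N₀, SeymourBoundedMissing Δ N₀) :
    AveragedInequality := by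
  intro V _ A R hA hR0 hR
  classical
  by_contra hcon
  push Not at hcon
  let n : ℕ := Fintype.card V
  let u : V → ℕ := fun a => 2 * (outSet A a).ncard + {x | R a x}.ncard
  have hmin : ∀ b, ∃ a, R a b ∧ ∀ a', R a' b → u a ≤ u a' := by
    intro b
    obtain ⟨a, ha, hle⟩ := (Finset.univ.filter fun a => R a b).exists_min_image u
      ⟨b, by simp [hR0 b]⟩
    exact ⟨a, (mem_filter.mp ha).2, fun a' ha' => hle a' (by simp [ha'])⟩
  choose f hf hfmin using hmin
  have hbig : n ^ 2 < ∑ b, u (f b) := hcon f hf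
  let k : ℕ := 2 * n + 1
  let c : V → ℤ := fun a => (u a : ℤ) - n
  have hm : 1 ≤ ∑ b, c (f b) := by
    have h : ((n ^ 2 : ℕ) : ℤ) < ((∑ b, u (f b) : ℕ) : ℤ) := by exact_mod_cast hbig
    push_cast at h
    simp only [c, sum_sub_distrib, sum_const, card_univ, nsmul_eq_mul]
    show 1 ≤ _ - (n : ℤ) * n
    nlinarith
  let A' : V × Fin k → V × Fin k → Prop := fun x y => A x.1 y.1
  let R' : V × Fin k → V × Fin k → Prop := fun x y => R x.1 y.1
  let t : V × Fin k → ℤ := fun x => (-(k : ℤ) * c x.1 + 3) / 2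
  let T : V × Fin k → ℤ := fun x => (-(k : ℤ) * c (f x.1) + 3) / 2
  have hcount : ∀ p : V → Prop, {x : V × Fin k | p x.1}.ncard = {a | p a}.ncard * k := by
    intro p
    have : {x : V × Fin k | p x.1} = {a | p a} ×ˢ (Set.univ : Set (Fin k)) := by
      ext; simp
    rw [this, Set.ncard_prod, Set.ncard_univ, Nat.card_fin]
  have hcard : Fintype.card (V × Fin k) = n * k := by simp [n]
  suffices hg : ∃ Δ, ∀ N₀, ¬ SeymourBoundedMissing Δ N₀ by
    obtain ⟨Δ, hΔ⟩ := hg
    obtain ⟨N₀, hN₀⟩ := hS Δ
    exact hΔ N₀ hN₀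
  refine gadget A' R' (fun x y h => hA _ _ h) (fun x => hR0 x.1) ?_ t T ?_ ?_ ?_
  · intro x y hxy hne
    by_cases h : x.1 = y.1
    · refine ⟨fun hxy' => hA _ _ hxy' (by simpa [A', h] using hxy'), ?_⟩
      rintro ⟨z, hz, hz'⟩
      exact hA _ _ hz (by simpa [A', h] using hz')
    · obtain ⟨h1, h2⟩ := hR _ _ hxy h
      exact ⟨h1, fun ⟨z, hz, hz'⟩ => h2 ⟨z.1, hz, hz'⟩⟩
  · intro x y hxy
    simp only [t, T]
    refine Int.ediv_le_ediv two_pos ?_
    have : c (f y.1) ≤ c x.1 := by
      have := hfmin y.1 x.1 hxy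
      simp only [c]; omega
    nlinarith
  · intro x
    have e1 : (outSet A' x).ncard = (outSet A x.1).ncard * k := hcount (fun a => A x.1 a)
    have e2 : {y | R' x y}.ncard = {a | R x.1 a}.ncard * k := hcount (fun a => R x.1 a)
    rw [hcard, e1, e2]
    have e3 : c x.1 = 2 * ((outSet A x.1).ncard : ℤ) + ({a | R x.1 a}.ncard : ℤ) - n := by
      simp [c, u]
    have e4 : -(k : ℤ) * c x.1 + 2 ≤ 2 * t x := by
      simp only [t]; omega
    rw [e3] at e4
    push_cast
    nlinarith
  · have e1 : ∀ x, 2 * T x ≤ -(k : ℤ) * c (f x.1) + 3 := by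
      intro x; simp only [T]; omega
    rw [hcard, mul_sum]
    refine lt_of_le_of_lt (sum_le_sum fun x _ => e1 x) ?_
    simp only [Fintype.sum_prod_type, sum_const, card_univ, Fintype.card_fin, nsmul_eq_mul]
    rw [← mul_sum, sum_add_distrib, ← mul_sum, sum_const, card_univ, nsmul_eq_mul]
    have hk : (k : ℤ) = 2 * n + 1 := by simp [k]
    have hk0 : (0 : ℤ) < k := by omega
    push_cast
    show (k : ℤ) * (-(k : ℤ) * (∑ b, c (f b)) + (n : ℤ) * 3) < (n : ℤ) * k
    nlinarith [mul_le_mul_of_nonneg_left hm hk0.le]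

/-- Seymour's statement follows from the averaged inequality. -/
lemma seymour_of_averaged (hS : AveragedInequality) : Seymour := by
  intro V _ _ A hA
  classical
  have := Fintype.ofFinite V
  by_contra hcon
  push Not at hcon
  obtain ⟨f, -, hf⟩ := hS V A (fun a b => a = b ∨ (¬ A a b ∧ ¬ ∃ z, A a z ∧ A z b)) hA
    (fun a => Or.inl rfl) (fun a b h hne => h.resolve_left hne)
  have hu : ∀ a, Fintype.card V + 1 ≤ 2 * (outSet A a).ncard
      + {x | a = x ∨ (¬ A a x ∧ ¬ ∃ z, A a z ∧ A z x)}.ncard := by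
    intro a
    have hsub : (Set.univ : Set V) ⊆ {x | a = x ∨ (¬ A a x ∧ ¬ ∃ z, A a z ∧ A z x)}
        ∪ (outSet A a ∪ secondSet A a) := by
      intro x _
      simp only [Set.mem_union, outSet, secondSet, Set.mem_ofPred_eq]
      tauto
    have h := (Set.ncard_le_ncard hsub (Set.toFinite _)).trans
      ((Set.ncard_union_le _ _).trans (Nat.add_le_add_left (Set.ncard_union_le _ _) _))
    rw [Set.ncard_univ, Nat.card_eq_fintype_card] at h
    have := hcon a
    omega
  have h := (sum_le_sum (s := Finset.univ) fun b _ => hu (f b)).trans hf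
  rw [sum_const, card_univ, smul_eq_mul] at h
  have hpos : 0 < Fintype.card V := Fintype.card_pos
  nlinarith

/-- Seymour's statement holds iff the averaged inequality holds, and iff, for each `Δ`, it holds
for all sufficiently large oriented graphs with at most `Δ` non-neighbours at each vertex and all
in- and out-degrees at least `(n - Δ) / 2`. -/
theorem result : (Seymour ↔ AveragedInequality) ∧
    (Seymour ↔ ∀ Δ, ∃ N₀, SeymourBoundedMissing Δ N₀) := by
  have h1 : Seymour → ∀ Δ, ∃ N₀, SeymourBoundedMissing Δ N₀ :=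
    fun h _ => ⟨0, fun V _ _ A hA _ _ _ _ => h V A hA⟩
  exact ⟨⟨fun h => averaged_of_bounded (h1 h), seymour_of_averaged⟩,
    ⟨h1, fun h => seymour_of_averaged (averaged_of_bounded h)⟩⟩

end Vale.Agent.Results.P038.AlmostTournamentReduction
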