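import Vale.Agent.P038.Defs
import Vale.Agent.P038.PerTarget

/-!
Seymour's inequality, weighted form, up to out-neighbours lost to mutually losing partners.
-/

namespace Vale.Agent.Results.P038.NoMutualLosing

open Finset Vale.Agent.P038

variable {V : Type} [Fintype V]

lemma weighted (A : V → V → Prop) (hA : ∀ u v, A u v → ¬ A v u)
    (Y : Finset V) (habs : ∀ b, ∃ y ∈ Y, Misses A y b)
    (w : V → ℝ) (hw : ∀ b, 0 ≤ w b) (hW : 0 < ∑ b, w b) :
    ∃ v ∈ Y, ∑ x ∈ safeOut A Y v, w x ≤ ∑ x ∈ outTwo A v, w x := by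
  classical
  have h1mem : ∀ v x, x ∈ outOne A v ↔ A v x := by intro v x; simp [outOne]
  have h2mem : ∀ v x, x ∈ outTwo A v ↔ x ≠ v ∧ ¬ A v x ∧ ∃ u, A v u ∧ A u x := by
    intro v x; simp [outTwo]
  have hsmem : ∀ v x, x ∈ safeOut A Y v ↔ A v x ∧ ¬ ∃ y, y ∈ Y ∧ v ≠ y ∧ ¬ A v y ∧ ¬ A y v ∧
      Misses A y x ∧ Loses A v y ∧ Loses A y v := by
    intro v x
    simp [safeOut]
  let F : V → V → Prop := fun y c =>
    A y c ∨ (y ∈ Y ∧ c ∈ Y ∧ y ≠ c ∧ ¬ A y c ∧ ¬ A c y ∧ Loses A y c ∧ ¬ Loses A c y)
  let k : V → V → ℝ := fun y c => (if F y c then 1 else 0) - (if F c y then 1 else 0)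
  have hk : ∀ i j, k i j = - k j i := by intro i j; simp only [k]; ring
  have hk1 : ∀ i j, k i j ≤ 1 := by
    intro i j; simp only [k]; split_ifs <;> norm_num
  -- equilibrium inside each set of vertices of `Y` missing a target
  have hex : ∀ b, ∃ P : V → ℝ, (∀ y, 0 ≤ P y) ∧ ∑ y, P y = 1 ∧
      (∀ y, ¬ (y ∈ Y ∧ Misses A y b) → P y = 0) ∧
      ∀ c, c ∈ Y → Misses A c b → ∑ y, P y * k y c ≤ 0 := by
    intro b
    let K : Finset V := Y.filter (fun y => Misses A y b)
    obtain ⟨y0, hy0, hm0⟩ := habs b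
    have : Nonempty {y // y ∈ K} := ⟨⟨y0, mem_filter.mpr ⟨hy0, hm0⟩⟩⟩
    obtain ⟨Q, hQ0, hQ1, hQc⟩ :=
      exists_skew_equilibrium (fun i j : {y // y ∈ K} => k i j) (fun i j => hk i j)
    let P : V → ℝ := fun y => if h : y ∈ K then Q ⟨y, h⟩ else 0
    have hsum : ∀ g : V → ℝ, ∑ y, P y * g y = ∑ i : {y // y ∈ K}, Q i * g i := by
      intro g
      rw [← sum_subset (subset_univ K) (fun y _ hy => by simp [P, hy]), ← sum_coe_sort K]
      exact sum_congr rfl fun i _ => by simp [P, i.2]
    refine ⟨P, fun y => ?_, ?_, fun y hy => ?_, fun c hc hcb => ?_⟩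
    · by_cases h : y ∈ K
      · simp [P, h, hQ0]
      · simp [P, h]
    · have := hsum (fun _ => 1)
      simp only [mul_one] at this
      rw [this, hQ1]
    · have h : y ∉ K := fun h => hy (mem_filter.mp h)
      simp [P, h]
    · rw [hsum (fun y => k y c)]
      exact hQc ⟨c, mem_filter.mpr ⟨hc, hcb⟩⟩
  choose P hP0 hP1 hPs hPe using hex
  obtain ⟨v, hv, hgood⟩ := PerTarget.exists_good k
    (fun c b => if b ∈ outTwo A c then 1 else 0) (fun c b => if b ∈ safeOut A Y c then 1 else 0)
    hk Y P hP0 hP1 (fun b y hy => hPs b y (fun h => hy h.1))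
    (fun b c hc => by
      by_cases h1 : b ∈ outOne A c
      · have hcb : A c b := (h1mem c b).mp h1
        have h2 : b ∉ outTwo A c := fun h => ((h2mem c b).mp h).2.1 hcb
        -- what a vertex missing `b` can do to `c`
        have hkey : ∀ y, y ∈ Y → Misses A y b →
            ¬ F y c ∧ (b ∈ safeOut A Y c → F c y) := by
          intro y hyY hym
          have hnyb : ¬ A y b := fun h => hym.1 ((h1mem y b).mpr h)
          have hyc : y ≠ c := fun h => hnyb (h ▸ hcb)
          have hnyc : ¬ A y c := by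
            intro h
            by_cases hby : b = y
            · exact hA y c h (hby ▸ hcb)
            · exact hym.2 ((h2mem y b).mpr ⟨hby, hnyb, c, h, hcb⟩)
          have hlose : Loses A c y := ⟨b, hcb, hym⟩
          refine ⟨?_, fun hsafe => ?_⟩
          · rintro (h | ⟨_, _, _, _, _, _, h7⟩)
            · exact hnyc h
            · exact h7 hlose
          · by_cases h : A c y
            · exact Or.inl h
            · have hns : ¬ Loses A y c := fun h6 =>
                ((hsmem c b).mp hsafe).2 ⟨y, hyY, hyc.symm, h, hnyc, hym, hlose, h6⟩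
              exact Or.inr ⟨hc, hyY, hyc.symm, h, hnyc, hlose, hns⟩
        by_cases hs : b ∈ safeOut A Y c
        · simp only [hs, h2, if_true, if_false]
          have hval : ∀ y, P b y * k y c = P b y * (-1) := by
            intro y
            by_cases hy : y ∈ Y ∧ Misses A y b
            · simp [k, (hkey y hy.1 hy.2).1, (hkey y hy.1 hy.2).2 hs]
            · simp [hPs b y hy]
          rw [sum_congr rfl (fun y _ => hval y), ← sum_mul, hP1 b]
          norm_num
        · simp only [hs, h2, if_false, sub_zero]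
          refine sum_nonpos fun y _ => ?_
          by_cases hy : y ∈ Y ∧ Misses A y b
          · refine mul_nonpos_of_nonneg_of_nonpos (hP0 b y) ?_
            simp only [k, (hkey y hy.1 hy.2).1, if_false]
            split_ifs <;> norm_num
          · simp [hPs b y hy]
      · have hs : b ∉ safeOut A Y c := fun h => h1 ((h1mem c b).mpr ((hsmem c b).mp h).1)
        by_cases h2 : b ∈ outTwo A c
        · simp only [hs, h2, if_true, if_false]
          calc ∑ y, P b y * k y c ≤ ∑ y, P b y * 1 :=
                sum_le_sum fun y _ => mul_le_mul_of_nonneg_left (hk1 y c) (hP0 b y)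
            _ = 1 - 0 := by simp [hP1 b]
        · simp only [hs, h2, if_false, sub_zero]
          exact hPe b c hc ⟨h1, h2⟩)
    w hw hW
  refine ⟨v, hv, ?_⟩
  have e : ∀ s : Finset V, ∑ b, w b * (if b ∈ s then 1 else 0) = ∑ x ∈ s, w x := by
    intro s
    simp [mul_ite]
  simpa only [e] using hgood

/-- Each mutually losing partner costs at most `Δ` out-neighbours. -/
lemma card_out_le (A : V → V → Prop) (Y : Finset V) (Δ : ℕ)
    (hΔ : ∀ u, ({x ∈ (univ : Finset V) | x ≠ u ∧ ¬ A u x ∧ ¬ A x u} : Set V).ncard ≤ Δ)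
    (v : V) : (outOne A v).card ≤ (safeOut A Y v).card + Δ * Δ := by
  classical
  let miss : V → Finset V := fun u => univ.filter (fun x => x ≠ u ∧ ¬ A u x ∧ ¬ A x u)
  have hmiss : ∀ u, (miss u).card ≤ Δ := by
    intro u
    have h := hΔ u
    have e : ({x ∈ (univ : Finset V) | x ≠ u ∧ ¬ A u x ∧ ¬ A x u} : Set V) = ↑(miss u) := by
      ext x; simp [miss]
    rw [e, Set.ncard_coe_finset] at h
    exact h
  let part : Finset V := (miss v).filter (fun y => Loses A y v)
  let lost : V → Finset V := fun y => (outOne A v).filter (fun x => Misses A y x)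
  have hsub : outOne A v ⊆ safeOut A Y v ∪ part.biUnion lost := by
    intro x hx
    have hvx : A v x := by simpa [outOne] using hx
    by_cases hs : x ∈ safeOut A Y v
    · exact mem_union_left _ hs
    · simp only [safeOut, mem_filter, mem_univ, true_and, not_and, not_not] at hs
      obtain ⟨y, _, hvy, h1, h2, h3, _, h5⟩ := hs hvx
      refine mem_union_right _ (mem_biUnion.mpr ⟨y, ?_, ?_⟩)
      · simp only [part, miss, mem_filter, mem_univ, true_and]
        exact ⟨⟨hvy.symm, h1, h2⟩, h5⟩
      · exact mem_filter.mpr ⟨hx, h3⟩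
  have hlost : ∀ y ∈ part, (lost y).card ≤ Δ := by
    intro y hy
    simp only [part, miss, mem_filter, mem_univ, true_and] at hy
    obtain ⟨⟨_, hvy, hyv⟩, b', hyb', hb'⟩ := hy
    refine (Finset.card_le_card ?_).trans (hmiss b')
    intro x hx
    simp only [lost, outOne, mem_filter, mem_univ, true_and] at hx
    obtain ⟨hvx, hxy⟩ := hx
    simp only [Misses, outOne, outTwo, mem_filter, mem_univ, true_and] at hb' hxy
    simp only [miss, mem_filter, mem_univ, true_and]
    refine ⟨?_, ?_, ?_⟩
    · intro h; subst h; exact hb'.1 hvx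
    · intro h
      exact hxy.2 ⟨fun e => hvy (e ▸ hvx), hxy.1, b', hyb', h⟩
    · intro h
      exact hb'.2 ⟨fun e => hyv (e ▸ hyb'), hb'.1, x, hvx, h⟩
  calc (outOne A v).card ≤ (safeOut A Y v ∪ part.biUnion lost).card := card_le_card hsub
    _ ≤ (safeOut A Y v).card + (part.biUnion lost).card := card_union_le _ _
    _ ≤ (safeOut A Y v).card + part.card * Δ :=
        Nat.add_le_add_left (card_biUnion_le_card_mul _ _ _ hlost) _
    _ ≤ (safeOut A Y v).card + Δ * Δ :=
        Nat.add_le_add_left (Nat.mul_le_mul_right _ ((card_filter_le _ _).trans (hmiss v))) _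

/-- A set without mutually losing pairs that absorbs all targets but one is enough. -/
lemma all_but_one (A : V → V → Prop) (hA : ∀ p q, A p q → ¬ A q p) (Y : Finset V) (u : V)
    (habs : ∀ b, b ≠ u → ∃ y ∈ Y, Misses A y b)
    (hpair : ∀ c ∈ Y, ∀ y ∈ Y, c ≠ y → ¬ A c y → ¬ A y c → ¬ (Loses A c y ∧ Loses A y c)) :
    ∃ v, (outOne A v).card ≤ (outTwo A v).card := by
  classical
  have h1mem : ∀ v x, x ∈ outOne A v ↔ A v x := by intro v x; simp [outOne]
  have h2mem : ∀ v x, x ∈ outTwo A v ↔ x ≠ v ∧ ¬ A v x ∧ ∃ z, A v z ∧ A z x := by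
    intro v x; simp [outTwo]
  by_contra hno
  push Not at hno
  obtain ⟨b0, hb0⟩ : (outOne A u).Nonempty :=
    Finset.card_pos.mp (lt_of_le_of_lt (Nat.zero_le _) (hno u))
  have hub0 : A u b0 := (h1mem u b0).mp hb0
  have hb0u : b0 ≠ u := fun e => hA u u (e ▸ hub0) (e ▸ hub0)
  let F : V → V → Prop := fun y c =>
    A y c ∨ (y ∈ Y ∧ c ∈ Y ∧ y ≠ c ∧ ¬ A y c ∧ ¬ A c y ∧ Loses A y c)
  let k : V → V → ℝ := fun y c => (if F y c then 1 else 0) - (if F c y then 1 else 0)
  have hk : ∀ i j, k i j = - k j i := by intro i j; simp only [k]; ring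
  have hex : ∀ b, ∃ P : V → ℝ, (∀ y, 0 ≤ P y) ∧ (b ≠ u → ∑ y, P y = 1) ∧
      (∀ y, ¬ (y ∈ Y ∧ Misses A y b) → P y = 0) ∧
      ∀ c, c ∈ Y → Misses A c b → ∑ y, P y * k y c ≤ 0 := by
    intro b
    by_cases hb : b = u
    · exact ⟨fun _ => 0, fun _ => le_rfl, fun h => absurd hb h, fun _ _ => rfl,
        fun c _ _ => by simp⟩
    let K : Finset V := Y.filter (fun y => Misses A y b)
    obtain ⟨y0, hy0, hm0⟩ := habs b hb
    have : Nonempty {y // y ∈ K} := ⟨⟨y0, mem_filter.mpr ⟨hy0, hm0⟩⟩⟩
    obtain ⟨Q, hQ0, hQ1, hQc⟩ :=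
      exists_skew_equilibrium (fun i j : {y // y ∈ K} => k i j) (fun i j => hk i j)
    let P : V → ℝ := fun y => if h : y ∈ K then Q ⟨y, h⟩ else 0
    have hsum : ∀ g : V → ℝ, ∑ y, P y * g y = ∑ i : {y // y ∈ K}, Q i * g i := by
      intro g
      rw [← sum_subset (subset_univ K) (fun y _ hy => by simp [P, hy]), ← sum_coe_sort K]
      exact sum_congr rfl fun i _ => by simp [P, i.2]
    refine ⟨P, fun y => ?_, fun _ => ?_, fun y hy => ?_, fun c hc hcb => ?_⟩
    · by_cases h : y ∈ K
      · simp [P, h, hQ0]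
      · simp [P, h]
    · have := hsum (fun _ => 1)
      simp only [mul_one] at this
      rw [this, hQ1]
    · have h : y ∉ K := fun h => hy (mem_filter.mp h)
      simp [P, h]
    · rw [hsum (fun y => k y c)]
      exact hQc ⟨c, mem_filter.mpr ⟨hc, hcb⟩⟩
  choose P hP0 hP1 hPs hPe using hex
  let w : V → ℝ := fun b => if b = u then 0 else 1
  have hw : ∀ b, 0 ≤ w b := fun b => by simp only [w]; split_ifs <;> norm_num
  have hmain := PerTarget.sum_nonneg_combination k
    (fun c b => if b ∈ outTwo A c then 1 else 0) (fun c b => if b ∈ outOne A c then 1 else 0)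
    hk Y P hP0 (fun b y hy => hPs b y (fun h => hy h.1)) w hw
    (fun b hwb c hc => by
      have hb : b ≠ u := fun e => hwb (by simp [w, e])
      by_cases h1 : b ∈ outOne A c
      · have hcb : A c b := (h1mem c b).mp h1
        have h2 : b ∉ outTwo A c := fun h => ((h2mem c b).mp h).2.1 hcb
        simp only [h1, h2, if_true, if_false]
        have hval : ∀ y, P b y * k y c = P b y * (-1) := by
          intro y
          by_cases hy : y ∈ Y ∧ Misses A y b
          · have hnyb : ¬ A y b := fun h => hy.2.1 ((h1mem y b).mpr h)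
            have hyc : y ≠ c := fun h => hnyb (h ▸ hcb)
            have hnyc : ¬ A y c := by
              intro h
              by_cases hby : b = y
              · exact hA y c h (hby ▸ hcb)
              · exact hy.2.2 ((h2mem y b).mpr ⟨hby, hnyb, c, h, hcb⟩)
            have hlose : Loses A c y := ⟨b, hcb, hy.2⟩
            have hF : F c y := by
              by_cases h : A c y
              · exact Or.inl h
              · exact Or.inr ⟨hc, hy.1, hyc.symm, h, hnyc, hlose⟩
            have hnF : ¬ F y c := by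
              rintro (h | ⟨_, _, _, _, h5, h6⟩)
              · exact hnyc h
              · exact hpair c hc y hy.1 hyc.symm h5 hnyc ⟨hlose, h6⟩
            simp [k, hF, hnF]
          · simp [hPs b y hy]
        rw [sum_congr rfl (fun y _ => hval y), ← sum_mul, hP1 b hb]
        norm_num
      · by_cases h2 : b ∈ outTwo A c
        · simp only [h1, h2, if_true, if_false]
          have hk1 : ∀ y, k y c ≤ 1 := fun y => by simp only [k]; split_ifs <;> norm_num
          calc ∑ y, P b y * k y c ≤ ∑ y, P b y * 1 :=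
                sum_le_sum fun y _ => mul_le_mul_of_nonneg_left (hk1 y) (hP0 b y)
            _ = 1 - 0 := by simp [hP1 b hb]
        · simp only [h1, h2, if_false, sub_zero]
          exact hPe b c hc ⟨h1, h2⟩)
  -- every coefficient is at most zero
  have e : ∀ c, ∑ b, w b * ((if b ∈ outTwo A c then (1 : ℝ) else 0) -
      (if b ∈ outOne A c then 1 else 0))
      = (((outTwo A c).erase u).card : ℝ) - ((outOne A c).erase u).card := by
    intro c
    have e0 : ∀ s : Finset V, ∑ b, w b * (if b ∈ s then (1 : ℝ) else 0) = (s.erase u).card := by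
      intro s
      have : ∀ b, w b * (if b ∈ s then (1 : ℝ) else 0) = if b ∈ s.erase u then 1 else 0 := by
        intro b
        by_cases hb : b = u <;> simp [w, hb]
      rw [sum_congr rfl (fun b _ => this b), Finset.sum_boole, Finset.filter_univ_mem]
    simp only [mul_sub, sum_sub_distrib, e0]
  simp only [e] at hmain
  have hle : ∀ c, ((outTwo A c).erase u).card ≤ ((outOne A c).erase u).card := by
    intro c
    have h1 := Finset.card_erase_le (s := outTwo A c) (a := u)
    have h2 := Finset.pred_card_le_card_erase (s := outOne A c) (a := u)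
    have h3 := hno c
    omega
  have hlt : ∀ c, ¬ A c u → ((outTwo A c).erase u).card < ((outOne A c).erase u).card := by
    intro c hc
    rw [Finset.erase_eq_of_notMem (fun h => hc ((h1mem c u).mp h))]
    exact lt_of_le_of_lt Finset.card_erase_le (hno c)
  obtain ⟨y, hy⟩ : ∃ y, 0 < P b0 y := by
    by_contra hnone
    push Not at hnone
    have : ∑ y, P b0 y = 0 := sum_eq_zero fun y _ => le_antisymm (hnone y) (hP0 b0 y)
    linarith [hP1 b0 hb0u]
  obtain ⟨hyY, hym⟩ : y ∈ Y ∧ Misses A y b0 := by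
    by_contra h
    linarith [hPs b0 y h]
  have hyu : ¬ A y u := by
    intro h
    by_cases hby : b0 = y
    · exact hA u y (hby ▸ hub0) h
    · exact hym.2 ((h2mem y b0).mpr ⟨hby, fun h' => hym.1 ((h1mem y b0).mpr h'), u, h, hub0⟩)
  have hty : 0 < ∑ b, w b * P b y := by
    refine Finset.sum_pos' (fun b _ => mul_nonneg (hw b) (hP0 b y)) ⟨b0, mem_univ _, ?_⟩
    simpa [w, hb0u] using hy
  have hneg : ∑ c, (∑ b, w b * P b c) *
      ((((outTwo A c).erase u).card : ℝ) - ((outOne A c).erase u).card) < 0 := by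
    have hterm : ∀ c ∈ (univ : Finset V), (∑ b, w b * P b c) *
        ((((outTwo A c).erase u).card : ℝ) - ((outOne A c).erase u).card) ≤ 0 := by
      intro c _
      refine mul_nonpos_of_nonneg_of_nonpos
        (sum_nonneg fun b _ => mul_nonneg (hw b) (hP0 b c)) ?_
      have := hle c
      rify at this
      linarith
    refine lt_of_lt_of_eq (sum_lt_sum hterm ⟨y, mem_univ _, ?_⟩) (by simp)
    refine mul_neg_of_pos_of_neg hty ?_
    have := hlt y hyu
    rify at this
    linarith
  linarith

/-- In a nonempty finite oriented graph, let a set `Y` of vertices contain, for every vertex `b`,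
a vertex missing `b`. Then, for every nonnegative weighting, some vertex of `Y` has at least as
much weight on its second neighbourhood as on its safe out-neighbours; in particular Seymour's
inequality holds if `Y` contains no mutually losing nonadjacent pair. -/
theorem result (V : Type) [Fintype V] [Nonempty V] (A : V → V → Prop)
    (hA : ∀ u v, A u v → ¬ A v u) (Y : Finset V) (habs : ∀ b, ∃ y ∈ Y, Misses A y b) :
    (∀ w : V → ℝ, (∀ x, 0 ≤ w x) →
      ∃ v ∈ Y, ∑ x ∈ safeOut A Y v, w x ≤ ∑ x ∈ outTwo A v, w x) ∧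
    (∃ v ∈ Y, (safeOut A Y v).card ≤ (outTwo A v).card) ∧
    ((∀ c ∈ Y, ∀ y ∈ Y, c ≠ y → ¬ A c y → ¬ A y c → ¬ (Loses A c y ∧ Loses A y c)) →
      ∃ v ∈ Y, (outOne A v).card ≤ (outTwo A v).card) ∧
    (∀ Δ : ℕ, (∀ u, {x : V | x ≠ u ∧ ¬ A u x ∧ ¬ A x u}.ncard ≤ Δ) →
      ∃ v ∈ Y, (outOne A v).card ≤ (outTwo A v).card + Δ * Δ) ∧
    (∀ (Z : Finset V) (u : V), (∀ b, b ≠ u → ∃ y ∈ Z, Misses A y b) →
      (∀ c ∈ Z, ∀ y ∈ Z, c ≠ y → ¬ A c y → ¬ A y c → ¬ (Loses A c y ∧ Loses A y c)) →
      ∃ v, (outOne A v).card ≤ (outTwo A v).card) := by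
  have hcard : ∃ v ∈ Y, (safeOut A Y v).card ≤ (outTwo A v).card := by
    obtain ⟨v, hv, h⟩ := weighted A hA Y habs (fun _ => (1 : ℝ)) (fun _ => zero_le_one)
      (by simp [Fintype.card_pos])
    refine ⟨v, hv, ?_⟩
    simp only [sum_const, nsmul_eq_mul, mul_one] at h
    exact_mod_cast h
  refine ⟨?_, hcard, fun hpair => ?_, fun Δ hΔ => ?_, fun Z u hZ hp => all_but_one A hA Z u hZ hp⟩
  · intro w hw
    rcases (Finset.sum_nonneg (fun x (_ : x ∈ Finset.univ) => hw x)).lt_or_eq with h | h
    · exact weighted A hA Y habs w hw h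
    · obtain ⟨y, hy, _⟩ := habs (Classical.arbitrary V)
      have hzero : ∀ x, w x = 0 := fun x =>
        (Finset.sum_eq_zero_iff_of_nonneg (fun x _ => hw x)).mp h.symm x (mem_univ x)
      exact ⟨y, hy, by simp [hzero]⟩
  · obtain ⟨v, hv, h⟩ := hcard
    refine ⟨v, hv, le_trans (Finset.card_le_card ?_) h⟩
    intro x hx
    simp only [outOne, mem_filter, mem_univ, true_and] at hx
    simp only [safeOut, mem_filter, mem_univ, true_and]
    refine ⟨hx, ?_⟩
    rintro ⟨y, hyY, hvy, h1, h2, _, h3, h4⟩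
    exact hpair v hv y hyY hvy h1 h2 ⟨h3, h4⟩
  · obtain ⟨v, hv, h⟩ := hcard
    exact ⟨v, hv, le_trans (card_out_le A Y Δ (by simpa using hΔ) v) (Nat.add_le_add_right h _)⟩

end Vale.Agent.Results.P038.NoMutualLosing
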