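import Vale.Agent.P038.DenseApply
import Vale.Agent.Results.P038.NoMutualLosing

/-!
Seymour's inequality for oriented graphs without sparse pairs of linear vertex sets.
-/

namespace Vale.Agent.Results.P038.DenseHosts

open Finset Vale.Agent.P038

/-- An oriented graph with an arc between any two vertices has a Seymour vertex. -/
lemma tournament {V : Type} [Fintype V] [Nonempty V] (A : V → V → Prop)
    (hA : ∀ u v, A u v → ¬ A v u) (h : ∀ u x, x ≠ u → A u x ∨ A x u) :
    ∃ v, (Dense.firstNbrs A v).card ≤ (Dense.secondNbrs A v).card := by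
  have hres := (NoMutualLosing.result V A hA univ (fun b => ⟨b, mem_univ b, ?_⟩)).2.2.1
  · obtain ⟨v, -, hv⟩ := hres (fun c _ y _ hcy h1 h2 => ((h c y hcy.symm).elim h1 h2).elim)
    exact ⟨v, hv⟩
  · simp only [Misses, outOne, outTwo, mem_filter, mem_univ, true_and]
    exact ⟨fun hb => hA b b hb hb, fun hb => hb.1 rfl⟩

/-- For `γ, ε > 0` there is `η > 0` such that the following holds for an oriented graph on `n`
vertices in which any two disjoint sets of at least `η n` vertices span at least a `γ` share of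
their pairs: some `v` has `|N1+(v)| ≤ |N2+(v)| + ε n`, and if moreover two such sets span at most
a `1 - γ` share and every out-degree is at least `ε n`, some `v` has `|N1+(v)| ≤ |N2+(v)|`. -/
theorem result (γ ε : ℝ) (hγ : 0 < γ) (hε : 0 < ε) :
    ∃ η : ℝ, 0 < η ∧ ∀ (V : Type) [Fintype V] [Nonempty V] (A : V → V → Prop),
      (∀ u v, A u v → ¬ A v u) →
      (∀ X Y : Finset V, Disjoint X Y → η * Fintype.card V ≤ X.card →
        η * Fintype.card V ≤ Y.card → γ * X.card * Y.card ≤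
          ({q : V × V | q.1 ∈ X ∧ q.2 ∈ Y ∧ (A q.1 q.2 ∨ A q.2 q.1)}.ncard : ℝ)) →
      (∃ v, ({u | A v u}.ncard : ℝ) ≤
        {x | x ≠ v ∧ ¬ A v x ∧ ∃ u, A v u ∧ A u x}.ncard + ε * Fintype.card V) ∧
      ((∀ X Y : Finset V, Disjoint X Y → η * Fintype.card V ≤ X.card →
        η * Fintype.card V ≤ Y.card →
          ({q : V × V | q.1 ∈ X ∧ q.2 ∈ Y ∧ (A q.1 q.2 ∨ A q.2 q.1)}.ncard : ℝ)
            ≤ (1 - γ) * X.card * Y.card) →
        (∀ v, ε * (Fintype.card V : ℝ) ≤ {u | A v u}.ncard) →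
        ∃ v, {u | A v u}.ncard ≤ {x | x ≠ v ∧ ¬ A v x ∧ ∃ u, A v u ∧ A u x}.ncard) := by
  set γ' := min γ (1 / 2) with hγ'
  set ε' := min ε 1 with hε'
  have hγ0 : 0 < γ' := lt_min hγ (by norm_num)
  have hε0 : 0 < ε' := lt_min hε one_pos
  have hγh : γ' ≤ 1 / 2 := min_le_right _ _
  obtain ⟨η₁, hη₁, h₁⟩ := Dense.exact_case γ' ε' hγ0 hγh hε0 (min_le_right _ _)
  obtain ⟨η₂, hη₂, h₂⟩ := Dense.asymptotic_case γ' ε' hγ0 (by linarith) hε0 (min_le_right _ _)
  refine ⟨min η₁ η₂, lt_min hη₁ hη₂, fun V _ _ A hA hlow => ?_⟩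
  classical
  set n : ℝ := (Fintype.card V : ℝ) with hn
  have hn0 : 0 ≤ n := by rw [hn]; exact Nat.cast_nonneg _
  have hm1 : min η₁ η₂ * n ≤ η₁ * n := mul_le_mul_of_nonneg_right (min_le_left _ _) hn0
  have hm2 : min η₁ η₂ * n ≤ η₂ * n := mul_le_mul_of_nonneg_right (min_le_right _ _) hn0
  have hout : ∀ v, ({u | A v u}.ncard : ℝ) = (Dense.firstNbrs A v).card := by
    intro v
    rw [Dense.firstNbrs, ← Set.ncard_coe_finset]
    congr 2
    ext u; simp
  have hsec : ∀ v, ({x | x ≠ v ∧ ¬ A v x ∧ ∃ u, A v u ∧ A u x}.ncard : ℝ)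
      = (Dense.secondNbrs A v).card := by
    intro v
    rw [Dense.secondNbrs, ← Set.ncard_coe_finset]
    congr 2
    ext u; simp
  have hcount : ∀ X Y : Finset V,
      ({q : V × V | q.1 ∈ X ∧ q.2 ∈ Y ∧ (A q.1 q.2 ∨ A q.2 q.1)}.ncard : ℝ)
        = Dense.adjCount A X Y := by
    intro X Y
    rw [Set.ncard_eq_toFinset_card']
    have : {q : V × V | q.1 ∈ X ∧ q.2 ∈ Y ∧ (A q.1 q.2 ∨ A q.2 q.1)}.toFinset
        = (X ×ˢ Y).filter fun q => Dense.Joined A q.1 q.2 := by
      ext q
      rw [Set.mem_toFinset, Set.mem_ofPred_eq, mem_filter, mem_product, and_assoc]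
      rfl
    rw [this, card_filter, sum_product, Nat.cast_sum]
    exact sum_congr rfl fun x _ => by rw [card_filter]
  have hlow' : ∀ X Y : Finset V, Disjoint X Y → min η₁ η₂ * n ≤ X.card →
      min η₁ η₂ * n ≤ Y.card → γ' * X.card * Y.card ≤ Dense.adjCount A X Y := by
    intro X Y hXY hX hY
    rw [← hcount]
    refine le_trans ?_ (hlow X Y hXY hX hY)
    exact mul_le_mul_of_nonneg_right
      (mul_le_mul_of_nonneg_right (min_le_left _ _) (Nat.cast_nonneg _)) (Nat.cast_nonneg _)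
  refine ⟨?_, fun hup hdeg => ?_⟩
  · by_cases hbig : 1 ≤ η₂ * n
    · obtain ⟨v, hv⟩ := h₂ V A hA (fun X Y hXY hX hY =>
        hlow' X Y hXY (hm2.trans hX) (hm2.trans hY)) hbig
      refine ⟨v, ?_⟩
      rw [hout, hsec]
      have : ε' * n ≤ ε * n := mul_le_mul_of_nonneg_right (min_le_left _ _) hn0
      linarith
    · have hcomplete : ∀ u x, x ≠ u → A u x ∨ A x u := by
        intro u x hxu
        by_contra hnot
        have h := hlow' {u} {x} (disjoint_singleton.mpr hxu.symm) (by simp; linarith)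
          (by simp; linarith)
        simp [Dense.adjCount, Dense.Joined, hnot, filter_singleton] at h
        linarith
      obtain ⟨v, hv⟩ := tournament A hA hcomplete
      refine ⟨v, ?_⟩
      rw [hout, hsec]
      have h0 : 0 ≤ ε * n := mul_nonneg hε.le hn0
      have hv' : ((Dense.firstNbrs A v).card : ℝ) ≤ (Dense.secondNbrs A v).card := by
        exact_mod_cast hv
      linarith
  · obtain ⟨v, hv⟩ := h₁ V A hA (fun X Y hXY hX hY => by
      refine ⟨hlow' X Y hXY (hm1.trans hX) (hm1.trans hY), ?_⟩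
      rw [← hcount]
      refine (hup X Y hXY (hm1.trans hX) (hm1.trans hY)).trans ?_
      exact mul_le_mul_of_nonneg_right (mul_le_mul_of_nonneg_right
        (by linarith [min_le_left γ (1 / 2)]) (Nat.cast_nonneg _)) (Nat.cast_nonneg _))
      (fun v => by
        rw [← hout]
        exact (mul_le_mul_of_nonneg_right (min_le_left _ _) hn0).trans (hdeg v))
    refine ⟨v, ?_⟩
    have h1 := hout v
    have h2 := hsec v
    have hv' : ((Dense.firstNbrs A v).card : ℝ) ≤ (Dense.secondNbrs A v).card := by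
      exact_mod_cast hv
    rw [← h1, ← h2] at hv'
    exact_mod_cast hv'

end Vale.Agent.Results.P038.DenseHosts
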