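import Vale.Agent.P038.MedianBound
import Vale.Agent.Results.P038.NoMutualLosing

/-!
Seymour's inequality, asymptotically, for nearly complete oriented graphs.
-/

namespace Vale.Agent.Results.P038.NearTournament

open Finset Vale.Agent.P038

variable {V : Type} [Fintype V]

/-- Bound with an explicit logarithm. -/
lemma bound (A : V → V → Prop) [Nonempty V] (hA : ∀ u v, A u v → ¬ A v u) (Δ : ℕ) (hpos : 0 < Δ)
    (hΔ : ∀ u, {x : V | x ≠ u ∧ ¬ A u x ∧ ¬ A x u}.ncard ≤ Δ) :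
    ∃ v, (outOne A v).card ≤
      (outTwo A v).card + Δ * (2 * Nat.clog 2 (Fintype.card V / Δ + 1) + 1) := by
  classical
  refine MedianBound.exists_near A hA Δ (fun u => ?_) _ ?_
  · have h := hΔ u
    rw [Set.ncard_eq_toFinset_card'] at h
    simpa using h
  · have h1 := Nat.le_pow_clog (b := 2) (by norm_num) (Fintype.card V / Δ + 1)
    calc Fintype.card V ≤ (Fintype.card V / Δ + 1) * Δ := by
          rw [mul_comm]; exact (Nat.lt_mul_div_succ _ hpos).le
      _ ≤ _ := Nat.mul_le_mul_right Δ h1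

/-- All vertices but few have few non-neighbours; a bound on those remaining vertices. -/
lemma bound_off_set (A : V → V → Prop) (hA : ∀ u v, A u v → ¬ A v u)
    (L : Finset V) (hL : L.card < Fintype.card V) (Δ : ℕ) (hpos : 0 < Δ)
    (hΔ : ∀ u, u ∉ L → {x : V | x ≠ u ∧ ¬ A u x ∧ ¬ A x u}.ncard ≤ Δ) :
    ∃ v, (outOne A v).card ≤ (outTwo A v).card + L.card +
      Δ * (2 * Nat.clog 2 (Fintype.card V / Δ + 1) + 1) := by
  classical
  let W := {x : V // x ∉ L}
  have hne : Nonempty W := by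
    by_contra h
    have : ∀ x, x ∈ L := fun x => by
      by_contra hx
      exact h ⟨⟨x, hx⟩⟩
    have : L.card = Fintype.card V := by
      rw [Finset.eq_univ_iff_forall.mpr this, Finset.card_univ]
    omega
  obtain ⟨v, hv⟩ := bound (V := W) (fun a b => A a.1 b.1) (fun a b h => hA a.1 b.1 h) Δ hpos
    (fun u => by
      refine le_trans ?_ (hΔ u.1 u.2)
      rw [← Set.ncard_image_of_injective _ Subtype.val_injective]
      refine Set.ncard_le_ncard ?_ (Set.toFinite _)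
      rintro x ⟨y, ⟨hy1, hy2, hy3⟩, rfl⟩
      exact ⟨fun e => hy1 (Subtype.ext e), hy2, hy3⟩)
  refine ⟨v.1, ?_⟩
  have hW : Fintype.card W ≤ Fintype.card V :=
    Fintype.card_le_of_injective _ Subtype.val_injective
  have hclog : Nat.clog 2 (Fintype.card W / Δ + 1) ≤ Nat.clog 2 (Fintype.card V / Δ + 1) :=
    Nat.clog_mono_right 2 (Nat.add_le_add_right (Nat.div_le_div_right hW) 1)
  have h1 : (outOne A v.1).card ≤ (outOne (fun a b : W => A a.1 b.1) v).card + L.card := by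
    rw [← card_image_of_injective _ Subtype.val_injective]
    refine le_trans (card_le_card ?_) (card_union_le _ _)
    intro x hx
    simp only [outOne, mem_filter, mem_univ, true_and] at hx
    by_cases hxL : x ∈ L
    · exact mem_union_right _ hxL
    · exact mem_union_left _ (mem_image.mpr ⟨⟨x, hxL⟩, by simp [outOne, hx], rfl⟩)
  have h2 : (outTwo (fun a b : W => A a.1 b.1) v).card ≤ (outTwo A v.1).card := by
    rw [← card_image_of_injective _ Subtype.val_injective]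
    refine card_le_card ?_
    intro x hx
    simp only [outTwo, mem_image, mem_filter, mem_univ, true_and] at hx ⊢
    obtain ⟨y, ⟨hy1, hy2, z, hz1, hz2⟩, rfl⟩ := hx
    exact ⟨fun e => hy1 (Subtype.ext e), hy2, z.1, hz1, hz2⟩
  have := Nat.mul_le_mul_left Δ (Nat.add_le_add_right (Nat.mul_le_mul_left 2 hclog) 1)
  omega

/-- A tournament has a Seymour vertex. -/
lemma tournament (A : V → V → Prop) [Nonempty V] (hA : ∀ u v, A u v → ¬ A v u)
    (h : ∀ u x, x ≠ u → A u x ∨ A x u) :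
    ∃ v, (outOne A v).card ≤ (outTwo A v).card := by
  have hres := (NoMutualLosing.result V A hA univ (fun b => ⟨b, mem_univ b, ?_⟩)).2.2.1
  · obtain ⟨v, -, hv⟩ := hres (fun c _ y _ hcy h1 h2 => ((h c y hcy.symm).elim h1 h2).elim)
    exact ⟨v, hv⟩
  · simp only [Misses, outOne, outTwo, mem_filter, mem_univ, true_and]
    exact ⟨fun hb => hA b b hb hb, fun hb => hb.1 rfl⟩

lemma exists_scale {η : ℝ} (hη : 0 < η) : ∃ k : ℕ, 1 ≤ k ∧ (4 * (k : ℝ) + 11) / 2 ^ k ≤ η := by
  obtain ⟨m, hm⟩ := exists_nat_ge (11 / η)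
  have key : ∀ j : ℕ, (j : ℝ) + 1 ≤ 2 ^ j := by
    intro j
    exact_mod_cast (Nat.lt_two_pow_self : j < 2 ^ j)
  refine ⟨2 * (m + 1), by omega, ?_⟩
  have h2 : ((m : ℝ) + 2) * ((m : ℝ) + 2) ≤ 2 ^ (2 * (m + 1)) := by
    rw [two_mul, pow_add]
    have := key (m + 1)
    push_cast at this
    exact mul_le_mul (by linarith) (by linarith) (by positivity) (by positivity)
  rw [div_le_iff₀ (by positivity)]
  rw [div_le_iff₀ hη] at hm
  push_cast
  have : η * (((m : ℝ) + 2) * ((m : ℝ) + 2)) ≤ η * 2 ^ (2 * (m + 1)) :=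
    mul_le_mul_of_nonneg_left h2 hη.le
  nlinarith [(Nat.cast_nonneg m : (0 : ℝ) ≤ m), hη]

/-- For every `η > 0` there is `ε > 0` such that an oriented graph with at most `ε n ^ 2` ordered
pairs of distinct nonadjacent vertices has a vertex with `|N1+| ≤ |N2+| + η n`. -/
lemma asymptotic {η : ℝ} (hη : 0 < η) :
    ∃ ε : ℝ, 0 < ε ∧ ∀ (V : Type) [Fintype V] [Nonempty V] (A : V → V → Prop),
      (∀ u v, A u v → ¬ A v u) →
      ({p : V × V | p.2 ≠ p.1 ∧ ¬ A p.1 p.2 ∧ ¬ A p.2 p.1}.ncard : ℝ) ≤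
        ε * (Fintype.card V : ℝ) ^ 2 →
      ∃ v, ((outOne A v).card : ℝ) ≤ (outTwo A v).card + η * Fintype.card V := by
  obtain ⟨k, hk1, hk⟩ := exists_scale hη
  refine ⟨1 / (2 ^ k * 2 ^ k), by positivity, fun V _ _ A hA hM => ?_⟩
  classical
  set n := Fintype.card V with hn
  let M : Finset (V × V) := univ.filter (fun p => p.2 ≠ p.1 ∧ ¬ A p.1 p.2 ∧ ¬ A p.2 p.1)
  have hMc : (M.card : ℝ) ≤ 1 / (2 ^ k * 2 ^ k) * (n : ℝ) ^ 2 := by
    rw [Set.ncard_eq_toFinset_card'] at hM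
    simpa [M] using hM
  by_cases hM0 : M.card = 0
  · obtain ⟨v, hv⟩ := tournament A hA (fun u x hxu => by
      by_contra h
      push Not at h
      exact absurd (Finset.card_eq_zero.mp hM0)
        (Finset.ne_empty_of_mem (a := (u, x)) (by simp [M, hxu, h.1, h.2])))
    refine ⟨v, ?_⟩
    have h2 : ((outOne A v).card : ℝ) ≤ (outTwo A v).card := by exact_mod_cast hv
    have : 0 ≤ η * (n : ℝ) := by positivity
    linarith
  have hM' : (M.card : ℝ) * (2 ^ k * 2 ^ k) ≤ (n : ℝ) ^ 2 := by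
    rw [div_mul_eq_mul_div, one_mul, le_div_iff₀ (by positivity)] at hMc
    exact hMc
  have hn2 : 2 ^ k ≤ n := by
    have : (2 ^ k * 2 ^ k : ℕ) ≤ n ^ 2 := by
      have h1 : (1 : ℝ) ≤ M.card := by exact_mod_cast Nat.pos_of_ne_zero hM0
      have hp : (0 : ℝ) ≤ 2 ^ k * 2 ^ k := by positivity
      have := (le_mul_of_one_le_left hp h1).trans hM'
      exact_mod_cast this
    rw [← pow_two] at this
    exact (Nat.pow_le_pow_iff_left two_ne_zero).mp this
  set Δ := n / 2 ^ k + 1 with hΔdef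
  let L : Finset V := univ.filter (fun u =>
    Δ < (univ.filter (fun x => x ≠ u ∧ ¬ A u x ∧ ¬ A x u)).card)
  have hsum : L.card * (Δ + 1) ≤ M.card := by
    have e : M.card = ∑ u, (univ.filter (fun x => x ≠ u ∧ ¬ A u x ∧ ¬ A x u)).card := by
      simp only [M, card_filter, ← univ_product_univ, sum_product]
    rw [e, ← smul_eq_mul]
    refine le_trans (card_nsmul_le_sum L _ _ (fun u hu => (mem_filter.mp hu).2)) ?_
    exact sum_le_sum_of_subset (subset_univ L)
  have hΔpos : 0 < Δ := Nat.succ_pos _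
  have hnk : n < 2 ^ k * Δ := Nat.lt_mul_div_succ n (by positivity)
  have hk0 : (0 : ℝ) < 2 ^ k := by positivity
  have hnR : (n : ℝ) ≤ 2 ^ k * Δ := by exact_mod_cast hnk.le
  have hΔR : (Δ : ℝ) * 2 ^ k ≤ 2 * n := by
    have h1 : n / 2 ^ k * 2 ^ k ≤ n := Nat.div_mul_le_self n (2 ^ k)
    have : Δ * 2 ^ k ≤ 2 * n := by rw [hΔdef, add_mul, one_mul]; omega
    exact_mod_cast this
  have hLR : (L.card : ℝ) * 2 ^ k ≤ n := by
    have h1 : (L.card : ℝ) * ((Δ : ℝ) + 1) ≤ M.card := by exact_mod_cast hsum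
    have hnpos : (0 : ℝ) < n := by exact_mod_cast Fintype.card_pos
    have h2 : (L.card : ℝ) * 2 ^ k * n ≤ (n : ℝ) * n := by
      calc (L.card : ℝ) * 2 ^ k * n ≤ (L.card : ℝ) * 2 ^ k * (2 ^ k * ((Δ : ℝ) + 1)) :=
            mul_le_mul_of_nonneg_left (by nlinarith) (by positivity)
        _ = (L.card : ℝ) * ((Δ : ℝ) + 1) * (2 ^ k * 2 ^ k) := by ring
        _ ≤ M.card * (2 ^ k * 2 ^ k) := mul_le_mul_of_nonneg_right h1 (by positivity)
        _ ≤ (n : ℝ) ^ 2 := hM'
        _ = n * n := by ring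
    exact le_of_mul_le_mul_right h2 hnpos
  have hLlt : L.card < n := by
    have h2k : (2 : ℝ) ≤ 2 ^ k := le_self_pow₀ (by norm_num) (by omega)
    have hnpos : (0 : ℝ) < n := by exact_mod_cast Fintype.card_pos
    have h3 : (L.card : ℝ) * 2 ≤ L.card * 2 ^ k :=
      mul_le_mul_of_nonneg_left h2k (Nat.cast_nonneg _)
    have : (L.card : ℝ) < n := by linarith
    exact_mod_cast this
  obtain ⟨v, hv⟩ := bound_off_set A hA L hLlt Δ hΔpos (fun u hu => by
    rw [Set.ncard_eq_toFinset_card']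
    simp only [L, mem_filter, mem_univ, true_and, not_lt] at hu
    simpa using hu)
  refine ⟨v, ?_⟩
  have hc : Nat.clog 2 (n / Δ + 1) ≤ k + 1 := by
    refine (Nat.clog_le_iff_le_pow (by norm_num)).mpr ?_
    have h1 : n / Δ < 2 ^ k := (Nat.div_lt_iff_lt_mul hΔpos).mpr hnk
    rw [pow_succ]
    omega
  have hv' : ((outOne A v).card : ℝ) ≤ (outTwo A v).card + L.card + Δ * (2 * (k + 1) + 1) := by
    have : (outOne A v).card ≤ (outTwo A v).card + L.card + Δ * (2 * (k + 1) + 1) := by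
      refine hv.trans (Nat.add_le_add_left (Nat.mul_le_mul_left Δ ?_) _)
      rw [← hn]
      omega
    exact_mod_cast this
  have hfin : (L.card : ℝ) + Δ * (2 * (k + 1) + 1) ≤ η * n := by
    have h1 : ((L.card : ℝ) + Δ * (2 * (k + 1) + 1)) * 2 ^ k ≤ n * (4 * k + 11) := by
      have := mul_le_mul_of_nonneg_right hΔR (show (0 : ℝ) ≤ 2 * ((k : ℝ) + 1) + 1 by positivity)
      nlinarith
    rw [div_le_iff₀ hk0] at hk
    have h2 : (n : ℝ) * (4 * k + 11) ≤ n * (η * 2 ^ k) :=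
      mul_le_mul_of_nonneg_left hk (Nat.cast_nonneg n)
    nlinarith
  linarith

/-- Every nonempty finite oriented graph in which each vertex is nonadjacent to at most `Δ ≥ 1`
others has a vertex with `|N1+| ≤ |N2+| + Δ (2 ⌈log₂ (n / Δ + 1)⌉ + 1)`; and for every `η > 0`
there is `ε > 0` such that one with at most `ε n ^ 2` nonadjacent ordered pairs has a vertex with
`|N1+| ≤ |N2+| + η n`. -/
theorem result :
    (∀ (V : Type) [Fintype V] [Nonempty V] (A : V → V → Prop), (∀ u v, A u v → ¬ A v u) →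
      ∀ Δ : ℕ, 0 < Δ → (∀ u, {x : V | x ≠ u ∧ ¬ A u x ∧ ¬ A x u}.ncard ≤ Δ) →
        ∃ v, (outOne A v).card ≤
          (outTwo A v).card + Δ * (2 * Nat.clog 2 (Fintype.card V / Δ + 1) + 1)) ∧
    (∀ η : ℝ, 0 < η → ∃ ε : ℝ, 0 < ε ∧ ∀ (V : Type) [Fintype V] [Nonempty V] (A : V → V → Prop),
      (∀ u v, A u v → ¬ A v u) →
      ({p : V × V | p.2 ≠ p.1 ∧ ¬ A p.1 p.2 ∧ ¬ A p.2 p.1}.ncard : ℝ) ≤
        ε * (Fintype.card V : ℝ) ^ 2 →
      ∃ v, ((outOne A v).card : ℝ) ≤ (outTwo A v).card + η * Fintype.card V) :=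
  ⟨fun _ _ _ A hA Δ hpos hΔ => bound A hA Δ hpos hΔ, fun _ hη => asymptotic hη⟩

end Vale.Agent.Results.P038.NearTournament
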